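import Mathlib

namespace Vale.Agent.P168Ferro

open MeasureTheory ProbabilityTheory Filter Topology
open scoped ENNReal NNReal

/-- The value in `{-1, 1}` of a spin; spins are coded by `Bool`. -/
def val (s : Bool) : ℝ := if s then 1 else -1

/-- `θ(σ_1, …, σ_K) = log (a (1 + b f_1(σ_1) ⋯ f_K(σ_K)))` for random `a, b, f_1, …, f_K`
(`f j s` is the random value of `f_j` at the spin `s`). -/
noncomputable def theta {K : ℕ} {Ω : Type} (a b : Ω → ℝ) (f : Fin K → Bool → Ω → ℝ)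
    (ω : Ω) (s : Fin K → Bool) : ℝ :=
  Real.log (a ω * (1 + b ω * ∏ j, f j (s j) ω))

/-- A model of the class: random variables `a, b, f_1, …, f_K` on a probability space `(Ω, P)`
and the law `eta` of the random field `h`. -/
structure Model (K : ℕ) (Ω : Type) [MeasurableSpace Ω] where
  P : Measure Ω
  P_prob : IsProbabilityMeasure P
  a : Ω → ℝ
  b : Ω → ℝ
  f : Fin K → Bool → Ω → ℝ
  a_meas : Measurable a
  b_meas : Measurable b
  f_meas : ∀ j s, Measurable (f j s)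
  a_pos : ∀ᵐ ω ∂P, 0 < a ω
  b_mem : ∀ᵐ ω ∂P, -1 < b ω ∧ b ω < 1
  f_mem : ∀ᵐ ω ∂P, ∀ j s, -1 ≤ f j s ω ∧ f j s ω ≤ 1
  positivity : ∀ n : ℕ, 1 ≤ n → 0 ≤ ∫ ω, (-b ω) ^ n ∂P
  theta_integrable : Integrable (fun ω => ⨆ s, |theta a b f ω s|) P
  eta : Measure ℝ
  eta_prob : IsProbabilityMeasure eta
  eta_integrable : Integrable (fun h : ℝ => |h|) eta

attribute [instance] Model.P_prob Model.eta_prob

variable {K : ℕ} {Ω : Type} [MeasurableSpace Ω]

/-- The random function `θ` of the model. -/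
noncomputable def Model.th (M : Model K Ω) : Ω → (Fin K → Bool) → ℝ := theta M.a M.b M.f

/-- The Hamiltonian `H_N`: `n` interaction terms, the `k`-th with disorder `ω k` and indices
`i (k, 1), …, i (k, K)`, and fields `h`. -/
noncomputable def hamiltonian (M : Model K Ω) {N : ℕ} (n : ℕ) (ω : ℕ → Ω)
    (i : ℕ × Fin K → Fin N) (h : Fin N → ℝ) (s : Fin N → Bool) : ℝ :=
  ∑ k ∈ Finset.range n, M.th (ω k) (fun j => s (i (k, j))) + ∑ v, h v * val (s v)

/-- The pressure `F_N`: `n` is Poisson of mean `lam * N`, the terms are i.i.d., the indices are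
i.i.d. uniform, the fields are i.i.d., and all of these are independent. -/
noncomputable def pressure (M : Model K Ω) (lam : ℝ≥0) (N : ℕ) : ℝ :=
  (1 / (N : ℝ)) * ∫ n, ∫ ω, ∫ i, ∫ h, Real.log (∑ s, Real.exp (hamiltonian M n ω i h s))
    ∂(Measure.pi fun _ : Fin N => M.eta)
    ∂(Measure.infinitePi fun _ : ℕ × Fin K => uniformOn (Set.univ : Set (Fin N)))
    ∂(Measure.infinitePi fun _ : ℕ => M.P)
    ∂(poissonMeasure (lam * (N : ℝ≥0)))

/-- A trial order parameter of depth `r`: exponents `0 < m_1 < … < m_r < 1` and a measurable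
`x` of `r + 1` variables in `[0,1]` with values in `[-1,1]`. -/
structure Trial (r : ℕ) where
  m : ℕ → ℝ
  m_mem : ∀ p, 1 ≤ p → p ≤ r → 0 < m p ∧ m p < 1
  m_lt : ∀ p, 1 ≤ p → p < r → m p < m (p + 1)
  x : (Fin (r + 1) → ℝ) → ℝ
  x_measurable : Measurable x
  x_mem : ∀ u, -1 ≤ x u ∧ x u ≤ 1

/-- The message with label `c`, built from its own levels `ω_0, …, ω_r`. -/
def message {r : ℕ} (t : Trial r) {ι : Type} (w : ℕ → ι → ℝ) (c : ι) : ℝ := t.x fun p => w p c

/-- I.i.d. uniform variables on `[0,1]`, one for each label. -/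
noncomputable def unif (ι : Type) : Measure (ι → ℝ) :=
  Measure.infinitePi fun _ => volume.restrict (Set.Icc 0 1)

/-- Starting from `Y_r = Y`, form successively `Y_{p-1} = (E_p Y_p^{m_p})^{1/m_p}` for
`p = r, …, 1`, where `E_p` integrates the level-`p` variables of all messages. -/
noncomputable def levels {ι : Type} (m : ℕ → ℝ) (r : ℕ) :
    ((ℕ → ι → ℝ) → ℝ) → (ℕ → ι → ℝ) → ℝ :=
  Nat.rec (fun Y => Y) (fun p ih Y => ih fun w =>
    (∫ v, Y (Function.update w (p + 1) v) ^ m (p + 1) ∂(unif ι)) ^ (1 / m (p + 1))) r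

/-- `E_0 log Y_0`, where `E_0` integrates the level-`0` variables of all messages; `T Y` is the
expectation of this over the remaining randomness. -/
noncomputable def logLevel {ι : Type} (m : ℕ → ℝ) (r : ℕ) (Y : (ℕ → ι → ℝ) → ℝ) : ℝ :=
  ∫ u, Real.log (levels m r Y (fun _ => u)) ∂(unif ι)

/-- The random variable `U`; messages are labelled by `(k, j)`. -/
noncomputable def siteU (M : Model K Ω) {r : ℕ} (t : Trial r) (n : ℕ) (ω : ℕ → Ω)
    (l : ℕ → Fin K) (h : ℝ) (w : ℕ → ℕ × Fin K → ℝ) : ℝ :=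
  ∑ e : Bool, Real.exp (h * val e) *
    ∏ k ∈ Finset.range n, ∑ s ∈ Finset.univ.filter (fun s : Fin K → Bool => s (l k) = e),
      Real.exp (M.th (ω k) s) *
        ∏ j ∈ Finset.univ.erase (l k), (1 + message t w (k, j) * val (s j)) / 2

/-- The random variable `V`. -/
noncomputable def clauseV (M : Model K Ω) {r : ℕ} (t : Trial r) (n : ℕ) (ω : ℕ → Ω)
    (w : ℕ → ℕ × Fin K → ℝ) : ℝ :=
  ∏ k ∈ Finset.range n, ∑ s : Fin K → Bool,
    Real.exp (M.th (ω k) s) * ∏ j, (1 + message t w (k, j) * val (s j)) / 2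

/-- `T U - T V`, with Poisson means `K lam` and `(K - 1) lam`. -/
noncomputable def trialValue (M : Model K Ω) (lam : ℝ≥0) (r : ℕ) (t : Trial r) : ℝ :=
  (∫ n, ∫ ω, ∫ l, ∫ h, logLevel t.m r (siteU M t n ω l h) ∂M.eta
      ∂(Measure.infinitePi fun _ : ℕ => uniformOn (Set.univ : Set (Fin K)))
      ∂(Measure.infinitePi fun _ : ℕ => M.P) ∂(poissonMeasure ((K : ℝ≥0) * lam)))
  - ∫ n, ∫ ω, logLevel t.m r (clauseV M t n ω)
      ∂(Measure.infinitePi fun _ : ℕ => M.P) ∂(poissonMeasure (((K - 1 : ℕ) : ℝ≥0) * lam))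

/-- `inf_{r ≥ 0} Φ_r`. -/
noncomputable def infPhi (M : Model K Ω) (lam : ℝ≥0) : EReal :=
  ⨅ r : ℕ, ⨅ t : Trial r, ((trialValue M lam r t : ℝ) : EReal)

/-- The equality of Q1 for one model: `lim_N F_N` exists and equals `inf_{r ≥ 0} Φ_r`. -/
def EqualityHolds (M : Model K Ω) (lam : ℝ≥0) : Prop :=
  Tendsto (fun N : ℕ => ((pressure M lam N : ℝ) : EReal)) atTop (𝓝 (infPhi M lam))

end Vale.Agent.P168Ferro
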