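import Vale.Agent.P168Ferro.Defs

namespace Vale.Agent.P168Ferro

open MeasureTheory ProbabilityTheory Filter Topology
open scoped ENNReal NNReal

lemma val_mul_self (s : Bool) : val s * val s = 1 := by
  cases s <;> simp [val]

lemma abs_val (s : Bool) : |val s| = 1 := by
  cases s <;> simp [val]

/-- The ferromagnetic interaction. -/
noncomputable def ferro {K : ℕ} (c : ℝ) (s : Fin K → Bool) : ℝ :=
  Real.log (1 + c * ∏ j, val (s j))

lemma theta_eq {K : ℕ} (c : ℝ) (ω : Fin K → Bool) :
    theta (fun _ => 1) (fun ω : Fin K → Bool => c * ∏ j, val (ω j))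
      (fun j s ω => val (ω j) * val s) ω = ferro c := by
  funext τ
  simp only [theta, ferro, Finset.prod_mul_distrib]
  congr 1
  have h : (∏ j, val (ω j)) * (∏ j, val (ω j)) = 1 := by
    rw [← Finset.prod_mul_distrib]
    exact Finset.prod_eq_one fun j _ => val_mul_self _
  linear_combination c * (∏ j, val (τ j)) * h

lemma abs_prod_val {K : ℕ} (s : Fin K → Bool) : |∏ j, val (s j)| = 1 := by
  rw [Finset.abs_prod]
  exact Finset.prod_eq_one fun j _ => abs_val _

lemma prod_val_sq {K : ℕ} (s : Fin K → Bool) : (∏ j, val (s j)) ^ 2 = 1 := by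
  rw [← sq_abs, abs_prod_val]; norm_num

/-- The model built from a law of sign vectors. -/
noncomputable def mkModel {K : ℕ} (c : ℝ) (h0 : 0 < c) (h1 : c < 1)
    (Q : Measure (Fin K → Bool)) [IsProbabilityMeasure Q]
    (hQ : ∫ s, ∏ j, val (s j) ∂Q ≤ 0) : Model K (Fin K → Bool) where
  P := Q
  P_prob := inferInstance
  a := fun _ => 1
  b := fun ω => c * ∏ j, val (ω j)
  f := fun j s ω => val (ω j) * val s
  a_meas := measurable_const
  b_meas := measurable_of_finite _
  f_meas := fun _ _ => measurable_of_finite _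
  a_pos := by simp
  b_mem := by
    refine Eventually.of_forall fun ω => ?_
    rw [← abs_lt]
    simp only [abs_mul, abs_prod_val, mul_one]
    rwa [abs_of_pos h0]
  f_mem := by
    refine Eventually.of_forall fun ω j e => ?_
    rw [← abs_le]
    simp [abs_mul, abs_val]
  positivity := by
    intro n hn
    rcases Nat.even_or_odd n with he | ho
    · exact integral_nonneg fun s => he.pow_nonneg _
    · have : ∀ s : Fin K → Bool, (-(c * ∏ j, val (s j))) ^ n = -(c ^ n) * ∏ j, val (s j) := by
        intro s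
        obtain ⟨k, rfl⟩ := ho
        have h2 : (∏ j, val (s j)) ^ (2 * k + 1) = ∏ j, val (s j) := by
          rw [pow_succ, pow_mul, prod_val_sq, one_pow, one_mul]
        rw [Odd.neg_pow ⟨k, rfl⟩, mul_pow, h2]; ring
      simp_rw [this]
      rw [integral_const_mul]
      have : 0 ≤ c ^ n := by positivity
      nlinarith
  theta_integrable := by
    simp_rw [theta_eq]
    exact integrable_const _
  eta := Measure.dirac 0
  eta_prob := inferInstance
  eta_integrable := by
    refine integrable_dirac ?_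
    simp

variable {K : ℕ} {c : ℝ} {h0 : 0 < c} {h1 : c < 1} {Q : Measure (Fin K → Bool)}
  [IsProbabilityMeasure Q] {hQ : ∫ s, ∏ j, val (s j) ∂Q ≤ 0}

lemma th_mkModel (ω : Fin K → Bool) : (mkModel c h0 h1 Q hQ).th ω = ferro c := theta_eq c ω

lemma ferro_le (h0 : 0 < c) (h1 : c < 1) (s : Fin K → Bool) : ferro c s ≤ Real.log (1 + c) := by
  unfold ferro
  have h := abs_le.1 (abs_prod_val s).le
  apply Real.log_le_log
  · nlinarith [h.1, h.2]
  · nlinarith [h.1, h.2]

lemma ferro_true (c : ℝ) : ferro c (fun _ : Fin K => true) = Real.log (1 + c) := by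
  simp [ferro, val]

lemma ham_eq {N : ℕ} (n : ℕ) (ω : ℕ → (Fin K → Bool)) (i : ℕ × Fin K → Fin N)
    (s : Fin N → Bool) :
    hamiltonian (mkModel c h0 h1 Q hQ) n ω i 0 s =
      ∑ k ∈ Finset.range n, ferro c (fun j => s (i (k, j))) := by
  simp [hamiltonian, th_mkModel]

/-- `log Z` of the ferromagnet without field. -/
noncomputable def logZ (c : ℝ) {K N : ℕ} (n : ℕ) (i : ℕ × Fin K → Fin N) : ℝ :=
  Real.log (∑ s : Fin N → Bool, Real.exp (∑ k ∈ Finset.range n, ferro c (fun j => s (i (k, j)))))

lemma logZ_lower (c : ℝ) {N : ℕ} (n : ℕ) (i : ℕ × Fin K → Fin N) :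
    (n : ℝ) * Real.log (1 + c) ≤ logZ c n i := by
  have h3 : ∑ k ∈ Finset.range n, ferro c (fun j => (fun _ : Fin N => true) (i (k, j))) =
      (n : ℝ) * Real.log (1 + c) := by
    simp [ferro_true]
  have hpos : 0 < ∑ s : Fin N → Bool,
      Real.exp (∑ k ∈ Finset.range n, ferro c (fun j => s (i (k, j)))) :=
    Finset.sum_pos (fun _ _ => Real.exp_pos _) Finset.univ_nonempty
  have h4 := Finset.single_le_sum
    (f := fun s : Fin N → Bool => Real.exp (∑ k ∈ Finset.range n, ferro c (fun j => s (i (k, j)))))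
    (fun s _ => (Real.exp_pos _).le) (Finset.mem_univ (fun _ => true))
  dsimp only at h4 h3
  rw [h3] at h4
  exact (Real.le_log_iff_exp_le hpos).2 h4

lemma logZ_upper (h0 : 0 < c) (h1 : c < 1) {N : ℕ} (n : ℕ) (i : ℕ × Fin K → Fin N) :
    logZ c n i ≤ (N : ℝ) * Real.log 2 + (n : ℝ) * Real.log (1 + c) := by
  have hle : ∀ s : Fin N → Bool,
      ∑ k ∈ Finset.range n, ferro c (fun j => s (i (k, j))) ≤ (n : ℝ) * Real.log (1 + c) := by
    intro s
    calc ∑ k ∈ Finset.range n, ferro c (fun j => s (i (k, j)))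
        ≤ ∑ _k ∈ Finset.range n, Real.log (1 + c) :=
          Finset.sum_le_sum fun k _ => ferro_le h0 h1 _
      _ = _ := by simp
  have hpos : 0 < ∑ s : Fin N → Bool,
      Real.exp (∑ k ∈ Finset.range n, ferro c (fun j => s (i (k, j)))) :=
    Finset.sum_pos (fun _ _ => Real.exp_pos _) Finset.univ_nonempty
  refine (Real.log_le_iff_le_exp hpos).2 ?_
  rw [Real.exp_add]
  calc ∑ s : Fin N → Bool, Real.exp (∑ k ∈ Finset.range n, ferro c (fun j => s (i (k, j))))
      ≤ ∑ _s : Fin N → Bool, Real.exp ((n : ℝ) * Real.log (1 + c)) :=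
        Finset.sum_le_sum fun s _ => Real.exp_le_exp.2 (hle s)
    _ = 2 ^ N * Real.exp ((n : ℝ) * Real.log (1 + c)) := by simp
    _ = _ := by
      congr 1
      rw [← Real.log_pow, Real.exp_log (by positivity)]

lemma measurable_logZ {N : ℕ} (n : ℕ) :
    Measurable (fun i : ℕ × Fin K → Fin N => logZ c n i) := by
  unfold logZ
  apply Real.measurable_log.comp
  apply Finset.measurable_sum
  intro s _
  apply Real.measurable_exp.comp
  apply Finset.measurable_sum
  intro k _
  exact (measurable_of_finite (fun v : Fin K → Fin N => ferro c (fun j => s (v j)))).comp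
    (by fun_prop : Measurable fun i : ℕ × Fin K → Fin N => fun j => i (k, j))

lemma poisson_mean (r : ℝ≥0) :
    Integrable (fun n : ℕ => (n : ℝ)) (poissonMeasure r) ∧ ∫ n : ℕ, (n : ℝ) ∂(poissonMeasure r) = r := by
  have hs : HasSum (fun n : ℕ => Real.exp (-r) * (r : ℝ) ^ n / (n.factorial : ℝ) * (n : ℝ)) r := by
    rw [← hasSum_nat_add_iff' 1]
    simp only [Finset.range_one, Finset.sum_singleton, Nat.cast_zero, mul_zero, sub_zero]
    have h := (hasSum_one_poissonMeasure r).mul_left (r : ℝ)
    rw [mul_one] at h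
    have h3 : (fun n : ℕ => Real.exp (-r) * (r : ℝ) ^ (n + 1) / ((n + 1).factorial : ℝ) *
        ((n + 1 : ℕ) : ℝ)) = fun i : ℕ => (r : ℝ) * (Real.exp (-r) * (r : ℝ) ^ i / (i.factorial : ℝ)) := by
      funext n
      rw [Nat.factorial_succ, pow_succ]
      have h1 : ((n : ℝ) + 1) ≠ 0 := by positivity
      have h2 : (n.factorial : ℝ) ≠ 0 := by positivity
      push_cast
      field_simp
    rw [h3]
    exact h
  constructor
  · rw [integrable_poissonMeasure_iff]
    refine hs.summable.congr ?_
    intro n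
    simp
  · rw [integral_poissonMeasure]
    exact hs.tsum_eq

lemma inner_h {N : ℕ} (n : ℕ) (ω : ℕ → (Fin K → Bool)) (i : ℕ × Fin K → Fin N) :
    ∫ h, Real.log (∑ s, Real.exp (hamiltonian (mkModel c h0 h1 Q hQ) n ω i h s))
      ∂(Measure.pi fun _ : Fin N => (mkModel c h0 h1 Q hQ).eta) = logZ c n i := by
  have he : (Measure.pi fun _ : Fin N => (mkModel c h0 h1 Q hQ).eta) =
      Measure.dirac (0 : Fin N → ℝ) := by
    rw [← Measure.infinitePi_eq_pi]
    exact Measure.infinitePi_dirac (fun _ : Fin N => (0 : ℝ))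
  rw [he, integral_dirac]
  simp only [ham_eq, logZ]

lemma pressure_lower (lam : ℝ≥0) (N : ℕ) [NeZero N] :
    (lam : ℝ) * Real.log (1 + c) ≤ pressure (mkModel c h0 h1 Q hQ) lam N := by
  have hN : (0 : ℝ) < N := by
    have := NeZero.pos N
    exact_mod_cast this
  have hlog : 0 ≤ Real.log (1 + c) := Real.log_nonneg (by linarith)
  unfold pressure
  simp only [inner_h, integral_const, probReal_univ, one_smul]
  set μ := Measure.infinitePi fun _ : ℕ × Fin K => uniformOn (Set.univ : Set (Fin N)) with hμ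
  have : IsProbabilityMeasure μ := by rw [hμ]; infer_instance
  have hint : ∀ n, Integrable (fun i => logZ (K := K) (N := N) c n i) μ := by
    intro n
    refine Integrable.mono' (g := fun _ => (N : ℝ) * Real.log 2 + (n : ℝ) * Real.log (1 + c))
      (integrable_const _) (measurable_logZ n).aestronglyMeasurable ?_
    refine Eventually.of_forall fun i => ?_
    have hl := logZ_lower c n i
    have hu := logZ_upper h0 h1 n i
    have : 0 ≤ (n : ℝ) * Real.log (1 + c) := by positivity
    rw [Real.norm_eq_abs, abs_le]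
    have h2 : 0 ≤ (N : ℝ) * Real.log 2 := by positivity
    constructor <;> linarith
  have hlow : ∀ n : ℕ, (n : ℝ) * Real.log (1 + c) ≤ ∫ i, logZ (K := K) (N := N) c n i ∂μ := by
    intro n
    calc (n : ℝ) * Real.log (1 + c) = ∫ _i, (n : ℝ) * Real.log (1 + c) ∂μ := by simp
      _ ≤ _ := integral_mono (integrable_const _) (hint n) fun i => logZ_lower c n i
  have hup : ∀ n : ℕ, ∫ i, logZ (K := K) (N := N) c n i ∂μ ≤
      (N : ℝ) * Real.log 2 + (n : ℝ) * Real.log (1 + c) := by
    intro n
    calc ∫ i, logZ (K := K) (N := N) c n i ∂μ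
        ≤ ∫ _i, ((N : ℝ) * Real.log 2 + (n : ℝ) * Real.log (1 + c)) ∂μ :=
          integral_mono (hint n) (integrable_const _) fun i => logZ_upper h0 h1 n i
      _ = _ := by simp
  have hint1 := (poisson_mean (lam * (N : ℝ≥0))).1
  have hintv := (poisson_mean (lam * (N : ℝ≥0))).2
  have hint2 : Integrable (fun n => ∫ i, logZ (K := K) (N := N) c n i ∂μ)
      (poissonMeasure (lam * (N : ℝ≥0))) := by
    refine Integrable.mono' (g := fun n => (N : ℝ) * Real.log 2 + (n : ℝ) * Real.log (1 + c))
      ((integrable_const _).add (hint1.mul_const _))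
      (measurable_of_countable _).aestronglyMeasurable ?_
    refine Eventually.of_forall fun n => ?_
    have hl := hlow n
    have hu := hup n
    have : 0 ≤ (n : ℝ) * Real.log (1 + c) := by positivity
    rw [Real.norm_eq_abs, abs_le]
    have h2 : 0 ≤ (N : ℝ) * Real.log 2 := by positivity
    constructor <;> linarith
  have key : ∫ n : ℕ, (n : ℝ) * Real.log (1 + c) ∂(poissonMeasure (lam * (N : ℝ≥0))) ≤
      ∫ n, ∫ i, logZ (K := K) (N := N) c n i ∂μ ∂(poissonMeasure (lam * (N : ℝ≥0))) :=
    integral_mono (hint1.mul_const _) hint2 hlow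
  rw [integral_mul_const, hintv] at key
  rw [one_div, le_inv_mul_iff₀ hN]
  push_cast at key
  linarith

/-- The depth-zero trial parameter with zero messages. -/
noncomputable def zeroTrial : Trial 0 where
  m := fun _ => 1 / 2
  m_mem := fun p h1 h2 => by omega
  m_lt := fun p h1 h2 => by omega
  x := fun _ => 0
  x_measurable := measurable_const
  x_mem := fun _ => by simp

lemma exp_ferro (h0 : 0 < c) (h1 : c < 1) (s : Fin K → Bool) :
    Real.exp (ferro c s) = 1 + c * ∏ j, val (s j) := by
  unfold ferro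
  apply Real.exp_log
  have h := abs_le.1 (abs_prod_val s).le
  nlinarith [h.1, h.2]

lemma sum_val : ∑ e : Bool, val e = 0 := by simp [val]

lemma sum_prod_val [NeZero K] : ∑ s : Fin K → Bool, ∏ j, val (s j) = 0 := by
  rw [← Fintype.prod_sum (fun (_ : Fin K) (e : Bool) => val e)]
  exact Finset.prod_eq_zero (Finset.mem_univ (0 : Fin K)) sum_val

lemma clause_sum [NeZero K] (h0 : 0 < c) (h1 : c < 1) :
    ∑ s : Fin K → Bool, Real.exp (ferro c s) * ∏ _j : Fin K, ((1 : ℝ) / 2) = 1 := by
  simp_rw [exp_ferro h0 h1, Finset.prod_const, Finset.card_univ, Fintype.card_fin, add_mul, one_mul]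
  rw [Finset.sum_add_distrib, ← Finset.sum_mul, ← Finset.mul_sum, sum_prod_val]
  simp

lemma site_sum (hK : 2 ≤ K) (h0 : 0 < c) (h1 : c < 1) (l : Fin K) (e : Bool) :
    ∑ s ∈ Finset.univ.filter (fun s : Fin K → Bool => s l = e),
      Real.exp (ferro c s) * ∏ _j ∈ Finset.univ.erase l, ((1 : ℝ) / 2) = 1 := by
  have hpi : Finset.univ.filter (fun s : Fin K → Bool => s l = e) =
      Fintype.piFinset (fun j => if j = l then {e} else Finset.univ) := by
    ext s
    simp only [Finset.mem_filter, Finset.mem_univ, true_and, Fintype.mem_piFinset]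
    constructor
    · intro h j
      by_cases hj : j = l
      · subst hj; simp [h]
      · simp [hj]
    · intro h
      have := h l
      simpa using this
  simp_rw [exp_ferro h0 h1, Finset.prod_const, Finset.card_erase_of_mem (Finset.mem_univ l),
    Finset.card_univ, Fintype.card_fin, add_mul, one_mul]
  rw [Finset.sum_add_distrib, ← Finset.sum_mul, ← Finset.mul_sum]
  have hcard : (Finset.univ.filter (fun s : Fin K → Bool => s l = e)).card = 2 ^ (K - 1) := by
    rw [hpi, Fintype.card_piFinset]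
    rw [← Finset.mul_prod_erase _ _ (Finset.mem_univ l)]
    simp only [if_true, Finset.card_singleton, one_mul]
    rw [Finset.prod_congr rfl (g := fun _ => 2)]
    · simp
    · intro j hj
      simp [Finset.ne_of_mem_erase hj]
  have hzero : ∑ s ∈ Finset.univ.filter (fun s : Fin K → Bool => s l = e), ∏ j, val (s j) = 0 := by
    rw [hpi, ← Finset.prod_univ_sum (fun j => if j = l then {e} else Finset.univ)
      (fun _ b => val b)]
    obtain ⟨j, hj⟩ : ∃ j : Fin K, j ≠ l := by
      have : Nontrivial (Fin K) := Fin.nontrivial_iff_two_le.2 hK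
      exact exists_ne l
    refine Finset.prod_eq_zero (Finset.mem_univ j) ?_
    simp only [hj, if_false]
    exact sum_val
  rw [hzero]
  simp [hcard]

instance : IsProbabilityMeasure ((volume : Measure ℝ).restrict (Set.Icc 0 1)) :=
  ⟨by simp⟩

instance (ι : Type) : IsProbabilityMeasure (unif ι) := by unfold unif; infer_instance

lemma levels_zero {ι : Type} (m : ℕ → ℝ) (Y : (ℕ → ι → ℝ) → ℝ) : levels m 0 Y = Y := rfl

lemma levels_succ {ι : Type} (m : ℕ → ℝ) (r : ℕ) (Y : (ℕ → ι → ℝ) → ℝ) :
    levels m (r + 1) Y = levels m r fun w =>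
      (∫ v, Y (Function.update w (r + 1) v) ^ m (r + 1) ∂(unif ι)) ^ (1 / m (r + 1)) := rfl

lemma site_eq (hK : 2 ≤ K) (n : ℕ) (ω : ℕ → (Fin K → Bool)) (l : ℕ → Fin K)
    (w : ℕ → ℕ × Fin K → ℝ) :
    siteU (mkModel c h0 h1 Q hQ) zeroTrial n ω l 0 w = 2 := by
  simp only [siteU, th_mkModel, message, zeroTrial, zero_mul, add_zero, Real.exp_zero, one_mul]
  have : ∀ e : Bool, (∏ k ∈ Finset.range n,
      ∑ s ∈ Finset.univ.filter (fun s : Fin K → Bool => s (l k) = e),
        Real.exp (ferro c s) * ∏ _j ∈ Finset.univ.erase (l k), ((1 : ℝ) / 2)) = 1 := by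
    intro e
    exact Finset.prod_eq_one fun k _ => site_sum hK h0 h1 _ e
  simp_rw [this]
  simp

lemma clause_eq [NeZero K] (n : ℕ) (ω : ℕ → (Fin K → Bool)) (w : ℕ → ℕ × Fin K → ℝ) :
    clauseV (mkModel c h0 h1 Q hQ) zeroTrial n ω w = 1 := by
  simp only [clauseV, th_mkModel, message, zeroTrial, zero_mul, add_zero]
  rw [Finset.prod_eq_one]
  intro k _
  exact clause_sum h0 h1

lemma infPhi_le (hK : 2 ≤ K) (lam : ℝ≥0) :
    infPhi (mkModel c h0 h1 Q hQ) lam ≤ ((Real.log 2 : ℝ) : EReal) := by
  have : NeZero K := ⟨by omega⟩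
  refine (iInf_le _ 0).trans ((iInf_le _ zeroTrial).trans ?_)
  have he : (mkModel c h0 h1 Q hQ).eta = Measure.dirac 0 := rfl
  rw [EReal.coe_le_coe_iff]
  refine le_of_eq ?_
  unfold trialValue
  rw [he]
  have h1' : ∀ n ω l, logLevel zeroTrial.m 0 (siteU (mkModel c h0 h1 Q hQ) zeroTrial n ω l 0) =
      Real.log 2 := by
    intro n ω l
    simp only [logLevel, levels_zero]
    rw [show (fun u : ℕ × Fin K → ℝ => Real.log (siteU (mkModel c h0 h1 Q hQ) zeroTrial n ω l 0
      fun _ => u)) = fun _ => Real.log 2 from by funext u; rw [site_eq hK]]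
    simp
  have h2' : ∀ n ω, logLevel zeroTrial.m 0 (clauseV (mkModel c h0 h1 Q hQ) zeroTrial n ω) =
      0 := by
    intro n ω
    simp only [logLevel, levels_zero]
    rw [show (fun u : ℕ × Fin K → ℝ => Real.log (clauseV (mkModel c h0 h1 Q hQ) zeroTrial n ω
      fun _ => u)) = fun _ => 0 from by funext u; rw [clause_eq, Real.log_one]]
    simp
  simp only [integral_dirac, h1', h2']
  simp

/-! ### The two laws of sign vectors -/

/-- Independent uniform signs. -/
noncomputable def QA (K : ℕ) : Measure (Fin K → Bool) :=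
  Measure.pi fun _ => uniformOn (Set.univ : Set Bool)

instance (K : ℕ) : IsProbabilityMeasure (QA K) := by unfold QA; infer_instance

lemma integral_val_bool : ∫ e, val e ∂(uniformOn (Set.univ : Set Bool)) = 0 := by
  have h : ∀ e : Bool, (uniformOn (Set.univ : Set Bool)).real {e} = 1 / 2 := by
    intro e
    rw [measureReal_def, uniformOn_univ]
    simp
  rw [integral_fintype Integrable.of_finite]
  rw [Fintype.sum_bool, h, h]
  simp [val]

lemma QA_mean [NeZero K] : ∫ s, ∏ j, val (s j) ∂(QA K) ≤ 0 := by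
  unfold QA
  rw [integral_fintype_prod_eq_prod (f := fun (_ : Fin K) (e : Bool) => val e)]
  refine le_of_eq (Finset.prod_eq_zero (Finset.mem_univ (0 : Fin K)) integral_val_bool)

/-- The map sending a sign to the function `σ ↦ ± σ`. -/
noncomputable def signFn (e : Bool) : Bool → ℝ := fun u => val e * val u

lemma QA_indep : iIndepFun (fun (j : Fin K) (ω : Fin K → Bool) => signFn (ω j)) (QA K) :=
  iIndepFun_pi (X := fun _ => signFn) fun _ => (measurable_of_finite _).aemeasurable

lemma QA_ident (i j : Fin K) : IdentDistrib (fun ω : Fin K → Bool => signFn (ω i))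
    (fun ω : Fin K → Bool => signFn (ω j)) (QA K) (QA K) := by
  have h : ∀ i : Fin K, (QA K).map (fun ω => signFn (ω i)) =
      (uniformOn (Set.univ : Set Bool)).map signFn := by
    intro i
    have h := (measurePreserving_eval (fun _ : Fin K => uniformOn (Set.univ : Set Bool)) i).map_eq
    rw [← h, Measure.map_map (measurable_of_finite _) (by fun_prop)]
    rfl
  exact ⟨(measurable_of_finite _).aemeasurable, (measurable_of_finite _).aemeasurable,
    (h i).trans (h j).symm⟩

/-- Sign vectors with product `-1`. -/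
noncomputable def oddSet (K : ℕ) : Finset (Fin K → Bool) :=
  Finset.univ.filter fun s => ∏ j, val (s j) = -1

/-- The uniform law on sign vectors with product `-1`. -/
noncomputable def QB (K : ℕ) : Measure (Fin K → Bool) := uniformOn (oddSet K : Set (Fin K → Bool))

lemma oddSet_nonempty [NeZero K] : (oddSet K).Nonempty := by
  refine ⟨fun j => decide (j ≠ 0), ?_⟩
  simp only [oddSet, Finset.mem_filter, Finset.mem_univ, true_and]
  rw [Finset.prod_eq_single (0 : Fin K)]
  · simp [val]
  · intro j _ hj; simp [val, hj]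
  · simp

instance [NeZero K] : IsProbabilityMeasure (QB K) :=
  isProbabilityMeasure_uniformOn (Finset.finite_toSet _) (by simpa using oddSet_nonempty)

lemma QB_ae [NeZero K] : ∀ᵐ s ∂(QB K), ∏ j, val (s j) = -1 := by
  have h : ∀ᵐ s ∂(QB K), s ∈ (oddSet K : Set (Fin K → Bool)) := by
    unfold QB uniformOn
    exact ae_cond_mem (Finset.finite_toSet _).measurableSet
  filter_upwards [h] with s hs
  simpa [oddSet] using hs

lemma QB_mean [NeZero K] : ∫ s, ∏ j, val (s j) ∂(QB K) ≤ 0 := by
  rw [integral_congr_ae QB_ae]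
  simp

lemma QB_b [NeZero K] (c : ℝ) : ∀ᵐ ω ∂(QB K), c * ∏ j, val (ω j) = -c := by
  filter_upwards [QB_ae] with s hs
  simp [hs]

lemma QB_perm (π : Equiv.Perm (Fin K)) : (QB K).map (fun s j => s (π j)) = QB K := by
  classical
  apply Measure.ext_of_singleton
  intro a
  rw [Measure.map_apply (measurable_of_finite _) (MeasurableSet.singleton a)]
  have hpre : (fun (s : Fin K → Bool) j => s (π j)) ⁻¹' {a} = {fun j => a (π.symm j)} := by
    ext s
    simp only [Set.mem_preimage, Set.mem_singleton_iff]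
    constructor
    · rintro rfl; funext j; simp
    · rintro rfl; funext j; simp
  rw [hpre]
  unfold QB
  rw [← Finset.coe_singleton, ← Finset.coe_singleton, uniformOn_apply_finset, uniformOn_apply_finset]
  have hmem : (fun j => a (π.symm j)) ∈ oddSet K ↔ a ∈ oddSet K := by
    simp only [oddSet, Finset.mem_filter, Finset.mem_univ, true_and]
    rw [Equiv.prod_comp π.symm (fun j => val (a j))]
  by_cases h : a ∈ oddSet K
  · rw [Finset.inter_singleton_of_mem h, Finset.inter_singleton_of_mem (hmem.2 h)]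
    simp
  · rw [Finset.inter_singleton_of_notMem h, Finset.inter_singleton_of_notMem (fun h' => h (hmem.1 h'))]

lemma QB_exch (π : Equiv.Perm (Fin K)) :
    IdentDistrib (fun (ω : Fin K → Bool) j => signFn (ω (π j)))
      (fun (ω : Fin K → Bool) j => signFn (ω j)) (QB K) (QB K) := by
  refine ⟨(measurable_of_finite _).aemeasurable, (measurable_of_finite _).aemeasurable, ?_⟩
  conv_rhs => rw [← QB_perm π, Measure.map_map (measurable_of_finite _) (measurable_of_finite _)]
  rfl

lemma exists_c (lam : ℝ) (h : 1 < lam) :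
    ∃ c : ℝ, 0 < c ∧ c < 1 ∧ Real.log 2 < lam * Real.log (1 + c) := by
  have h0 : 0 < lam := by linarith
  have hlt : Real.exp (Real.log 2 / lam) < 2 := by
    have : Real.log 2 / lam < Real.log 2 := div_lt_self (Real.log_pos (by norm_num)) h
    calc Real.exp (Real.log 2 / lam) < Real.exp (Real.log 2) := Real.exp_lt_exp.2 this
      _ = 2 := Real.exp_log (by norm_num)
  have hpos := Real.exp_pos (Real.log 2 / lam)
  refine ⟨Real.exp (Real.log 2 / lam) / 2, by positivity, by linarith, ?_⟩
  have : Real.log 2 / lam < Real.log (1 + Real.exp (Real.log 2 / lam) / 2) := by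
    rw [Real.lt_log_iff_exp_lt (by positivity)]
    linarith
  rw [div_lt_iff₀ h0] at this
  linarith

lemma gap_of (hK : 2 ≤ K) {lam : ℝ≥0} (h : Real.log 2 < lam * Real.log (1 + c)) :
    infPhi (mkModel c h0 h1 Q hQ) lam ≤ ((Real.log 2 : ℝ) : EReal) ∧
    ∃ δ : ℝ, 0 < δ ∧ ∀ N : ℕ, N ≠ 0 →
      Real.log 2 + δ ≤ pressure (mkModel c h0 h1 Q hQ) lam N := by
  refine ⟨infPhi_le hK lam, lam * Real.log (1 + c) - Real.log 2, by linarith,
    fun N hN => ?_⟩
  have : NeZero N := ⟨hN⟩
  have := pressure_lower (h0 := h0) (h1 := h1) (hQ := hQ) lam N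
  linarith

lemma not_equality {Ω : Type} [MeasurableSpace Ω] {M : Model K Ω} {lam : ℝ≥0}
    (h : infPhi M lam ≤ ((Real.log 2 : ℝ) : EReal) ∧
    ∃ δ : ℝ, 0 < δ ∧ ∀ N : ℕ, N ≠ 0 → Real.log 2 + δ ≤ pressure M lam N) :
    ¬ EqualityHolds M lam := by
  intro ht
  obtain ⟨hle, δ, hδ, hN⟩ := h
  have h1 : ((Real.log 2 + δ : ℝ) : EReal) ≤ infPhi M lam :=
    ge_of_tendsto ht (by
      filter_upwards [eventually_ne_atTop 0] with N hN0
      exact EReal.coe_le_coe_iff.2 (hN N hN0))
  have h2 := h1.trans hle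
  rw [EReal.coe_le_coe_iff] at h2
  linarith

end Vale.Agent.P168Ferro
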